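import Mathlib

/-! Bin packing and the configuration LP. -/

namespace Vale.Agent.P302

/-- The least number of bins: the items are split into `k` multisets of total size at most one. -/
noncomputable def OPT (I : List ℚ) : ℕ :=
  sInf {k | ∃ B : Fin k → Multiset ℚ, ∑ b, B b = (I : Multiset ℚ) ∧ ∀ b, (B b).sum ≤ 1}

/-- A configuration: multiplicities of the distinct sizes, of total size at most one. -/
def IsConfig (I : List ℚ) (c : I.toFinset → ℕ) : Prop := ∑ σ : I.toFinset, (σ : ℚ) * c σ ≤ 1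

/-- The value of the Gilmore-Gomory configuration LP. -/
noncomputable def LP (I : List ℚ) : ℝ :=
  sInf {t | ∃ (C : Finset (I.toFinset → ℕ)) (z : (I.toFinset → ℕ) → ℝ),
    (∀ c ∈ C, IsConfig I c ∧ 0 ≤ z c) ∧
    (∀ σ : I.toFinset, (I.count (σ : ℚ) : ℝ) ≤ ∑ c ∈ C, c σ * z c) ∧ t = ∑ c ∈ C, z c}

end Vale.Agent.P302
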