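import Mathlib

/-! Nested clusters of points that force nested intervals. -/

namespace Vale.Agent.P302

open Multiset

/-- number of intervals `(p - w, p]` containing `τ` -/
def ld (R : Multiset (ℚ × ℚ)) (τ : ℚ) : ℕ := R.countP fun e => e.1 - e.2 < τ ∧ τ ≤ e.1

/-- the points outside `S` lie in few short intervals -/
def Cov (R : Multiset (ℚ × ℚ)) (S : Finset ℚ) (N : ℕ) (δ : ℚ) : Prop :=
  ∃ T : Finset ℚ, T.card ≤ N ∧ ∀ e ∈ R, e.1 ∉ S → ∃ t ∈ T, t ≤ e.1 ∧ e.1 < t + δ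

/-- small load, and almost all lengths occur -/
def Adm (k : ℕ) (Y : Multiset ℚ) (R : Multiset (ℚ × ℚ)) : Prop :=
  (∀ τ, ld R τ ≤ k) ∧ ∀ w, Y.count w ≤ (R.map Prod.snd).count w + k

/-- the fractional solution -/
def Frac (M d : ℕ) (a : ℚ) (S : Finset ℚ) (Y : Multiset ℚ) (E : Multiset (ℚ × ℚ)) : Prop :=
  E.map Prod.snd = M • Y ∧ (∀ e ∈ E, e.1 ∈ S ∧ 0 < e.2 ∧ a ≤ e.1 - e.2) ∧ ∀ τ, ld E τ ≤ 3 * d

/-- a gadget of depth `d` -/
def Gad (k M d : ℕ) : Prop := ∀ (N : ℕ) (a σ : ℚ), 0 < σ →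
  ∃ (S : Finset ℚ) (Y : Multiset ℚ) (E : Multiset (ℚ × ℚ)) (δ : ℚ), 0 < δ ∧ δ ≤ σ ∧ S.Nonempty ∧
    (∀ p ∈ S, a ≤ p ∧ p < a + σ) ∧ Frac M d a S Y E ∧
    ∀ R, Adm k Y R → Cov R S N δ → ∃ τ ∈ S, d ≤ ld (R.filter fun e => e.2 < σ) τ

theorem Adm.mono {k : ℕ} {Y Y' : Multiset ℚ} {R} (h : Adm k Y R) (h' : Y' ≤ Y) : Adm k Y' R :=
  ⟨h.1, fun w => (count_le_of_le w h').trans (h.2 w)⟩

theorem row {k M d : ℕ} (h : Gad k M d) {a s : ℚ} (hs : 0 < s) (i : ℕ) : ∀ N : ℕ,
    ∃ (S : Finset ℚ) (Y : Multiset ℚ) (E : Multiset (ℚ × ℚ)) (δ : ℚ), 0 < δ ∧ δ ≤ s ∧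
    (∀ j < i, ∃ p ∈ S, a + s * j ≤ p ∧ p < a + s * (j + 1)) ∧
    (∀ p ∈ S, ∃ j < i, a + s * j ≤ p ∧ p < a + s * (j + 1)) ∧ Frac M d a S Y E ∧
    ∀ R, Adm k Y R → Cov R S N δ → ∀ j < i, ∃ τ ∈ S, (a + s * j ≤ τ ∧ τ < a + s * (j + 1)) ∧
      d ≤ ld (R.filter fun e => e.2 < s) τ := by
  induction i with
  | zero => exact fun N => ⟨∅, 0, 0, s, hs, le_rfl, by simp, by simp, by simp [Frac, ld], by simp⟩
  | succ i ih =>
    intro N
    obtain ⟨S, Y, E, δ, a1, a2, a3, a4, ⟨a5, a6, a7⟩, a8⟩ := ih (N + 1)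
    obtain ⟨S', Y', E', δ', b1, b2, ⟨p, b3⟩, b4, ⟨b5, b6, b7⟩, b8⟩ := h (N + S.card) (a + s * i) δ a1
    have c1 : ∀ p ∈ S', a + s * i ≤ p ∧ p < a + s * (i + 1) := fun p hp =>
      ⟨(b4 p hp).1, by linarith [(b4 p hp).2]⟩
    have c2 : ∀ p ∈ S, p < a + s * i := fun p hp => by
      obtain ⟨j, hj, -, h2⟩ := a4 p hp
      have : (j + 1 : ℚ) ≤ i := by exact_mod_cast hj
      nlinarith
    have c3 : 0 ≤ s * i := by positivity
    refine ⟨S ∪ S', Y + Y', E + E', δ', b1, b2.trans a2, fun j hj => ?_, fun p hp => ?_,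
      ⟨by rw [Multiset.map_add, a5, b5, nsmul_add], fun e he => ?_, fun τ => ?_⟩, fun R h1 h2 j hj => ?_⟩
    · rcases (Nat.lt_succ_iff.1 hj).lt_or_eq with hj | rfl
      · obtain ⟨p, hp, h2⟩ := a3 j hj
        exact ⟨p, Finset.mem_union_left _ hp, h2⟩
      · exact ⟨p, Finset.mem_union_right _ b3, c1 p b3⟩
    · rcases Finset.mem_union.1 hp with hp | hp
      · obtain ⟨j, hj, h2⟩ := a4 p hp
        exact ⟨j, by omega, h2⟩
      · exact ⟨i, by omega, c1 p hp⟩
    · rcases mem_add.1 he with he | he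
      · exact ⟨Finset.mem_union_left _ (a6 e he).1, (a6 e he).2⟩
      · exact ⟨Finset.mem_union_right _ (b6 e he).1, (b6 e he).2.1, by linarith [(b6 e he).2.2]⟩
    · rw [ld, countP_add]
      by_cases hτ : τ ≤ a + s * i
      · rw [countP_eq_zero.2 fun e (he : e ∈ E') h => by linarith [(b6 e he).2.2, h.1]]
        exact a7 τ
      · rw [countP_eq_zero.2 fun e (he : e ∈ E) h => by linarith [c2 _ (a6 e he).1, h.2], zero_add]
        exact b7 τ
    · obtain ⟨T, t1, t2⟩ := h2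
      rcases (Nat.lt_succ_iff.1 hj).lt_or_eq with hj | rfl
      · obtain ⟨τ, h3, h4⟩ := a8 R (h1.mono (le_add_right _ _)) ⟨insert (a + s * i) T,
          (Finset.card_insert_le _ _).trans (by omega), fun e he h => by
            by_cases h' : e.1 ∈ S'
            · exact ⟨_, Finset.mem_insert_self _ _, b4 _ h'⟩
            · obtain ⟨t, ht, h5, h6⟩ := t2 e he (by simp [h, h'])
              exact ⟨t, Finset.mem_insert_of_mem ht, h5, by linarith⟩⟩ j hj
        exact ⟨τ, Finset.mem_union_left _ h3, h4⟩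
      · obtain ⟨τ, h3, h4⟩ := b8 R (h1.mono (le_add_left _ _)) ⟨T ∪ S,
          (Finset.card_union_le _ _).trans (by omega), fun e he h => by
            by_cases h' : e.1 ∈ S
            · exact ⟨_, Finset.mem_union_right _ h', le_rfl, by linarith⟩
            · obtain ⟨t, ht, h5⟩ := t2 e he (by simp [h, h'])
              exact ⟨t, Finset.mem_union_left _ ht, h5⟩⟩
        exact ⟨τ, Finset.mem_union_right _ h3, c1 τ h3, h4.trans (countP_le_of_le _
          (monotone_filter_right R fun e (he : e.2 < δ) => he.trans_le a2))⟩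

theorem card_le_sum (R : Multiset (ℚ × ℚ)) (T : Finset ℚ)
    (h : ∀ e ∈ R, ∃ t ∈ T, e.1 - e.2 < t ∧ t ≤ e.1) : R.card ≤ ∑ t ∈ T, ld R t := by
  induction R using Multiset.induction with
  | empty => simp
  | cons e R ih =>
    obtain ⟨t, ht, h1⟩ := h e (mem_cons_self _ _)
    have := ih fun e he => h e (mem_cons_of_mem he)
    have h2 := Finset.single_le_sum (f := fun t => if e.1 - e.2 < t ∧ t ≤ e.1 then 1 else 0)
      (fun _ _ => Nat.zero_le _) ht
    simp only [ld, countP_cons, Finset.sum_add_distrib, card_cons, if_pos h1] at *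
    omega

theorem gad (k : ℕ) {M : ℕ} (hM : 0 < M) (d : ℕ) : Gad k M d := by
  induction d with
  | zero =>
    exact fun N a σ h => ⟨{a}, 0, 0, σ, h, le_rfl, by simp, by simp [h], by simp [Frac, ld], by simp⟩
  | succ d ih =>
    intro N a σ hσ
    obtain ⟨q, hq⟩ : ∃ q, q = k * (N + 2) + 1 := ⟨_, rfl⟩
    have hb : 0 < M * q := Nat.mul_pos hM (by omega)
    have hb' : (0 : ℚ) < (M * q : ℕ) := by exact_mod_cast hb
    obtain ⟨s, e⟩ : ∃ s : ℚ, σ = s * ((M * q : ℕ) + 2) := ⟨σ / ((M * q : ℕ) + 2), by field_simp⟩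
    have hs : 0 < s := by
      by_contra h
      nlinarith
    have h2s : 2 * s < σ := by nlinarith
    obtain ⟨S, Y, E, δ, a1, a2, a3, a4, ⟨a5, a6, a7⟩, a8⟩ := row ih (a := a + 2 * s) hs (M * q) N
    choose! A A1 A2 A3 using a3
    refine ⟨S, Y + replicate q (2 * s), E + (range (M * q)).map fun j => (A j, 2 * s), δ, a1,
      by linarith, ⟨_, A1 0 hb⟩, fun p hp => ?_, ⟨?_, fun x hx => ?_, fun τ => ?_⟩, fun R h1 h2 => ?_⟩
    · obtain ⟨j, hj, h1, h2⟩ := a4 p hp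
      have : (j + 1 : ℚ) ≤ (M * q : ℕ) := by exact_mod_cast hj
      have : 0 ≤ s * j := by positivity
      exact ⟨by linarith, by nlinarith⟩
    · rw [Multiset.map_add, a5, nsmul_add, nsmul_replicate, map_map]
      simp
    · rcases mem_add.1 hx with hx | hx
      · exact ⟨(a6 x hx).1, (a6 x hx).2.1, by linarith [(a6 x hx).2.2]⟩
      · obtain ⟨j, hj, rfl⟩ := mem_map.1 hx
        have : 0 ≤ s * j := by positivity
        exact ⟨A1 j (mem_range.1 hj), by linarith, by linarith [A2 j (mem_range.1 hj)]⟩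
    · rw [ld, countP_add, countP_map, mul_add]
      refine Nat.add_le_add (a7 τ) ?_
      obtain ⟨θ, hθ⟩ : ∃ θ, τ = a + 2 * s + s * θ := ⟨(τ - a - 2 * s) / s, by field_simp; ring⟩
      refine (Finset.card_le_card (s := (Finset.range (M * q)).filter _)
        (t := Finset.Ico ⌊θ⌋₊ (⌊θ⌋₊ + 3)) fun j hj => ?_).trans (by simp)
      obtain ⟨h1, h2, h3⟩ := Finset.mem_filter.1 hj
      have h4 := A2 j (Finset.mem_range.1 h1)
      have h5 := A3 j (Finset.mem_range.1 h1)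
      have h6 : θ < j + 1 := lt_of_mul_lt_mul_left (by linarith) hs.le
      have h7 : j < θ + 2 := lt_of_mul_lt_mul_left (by linarith) hs.le
      have h8 : (j : ℚ) < (⌊θ⌋₊ + 3 : ℕ) := by push_cast; linarith [Nat.lt_floor_add_one θ]
      exact Finset.mem_Ico.2 ⟨Nat.lt_succ_iff.1 ((Nat.floor_lt' (by omega)).2 (by exact_mod_cast h6)),
        by exact_mod_cast h8⟩
    · obtain ⟨x, hx, x1, x2, x3⟩ : ∃ x ∈ R, x.2 = 2 * s ∧ x.1 ∈ S ∧ a + 2 * s + s ≤ x.1 := by
        by_contra hc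
        push Not at hc
        obtain ⟨T, t1, t2⟩ := h2
        have b1 := card_le_sum (R.filter fun x => 2 * s = x.2) (insert (a + 2 * s) T) fun x hx => by
          obtain ⟨x1, x2⟩ := mem_filter.1 hx
          by_cases h : x.1 ∈ S
          · obtain ⟨j, -, h3, -⟩ := a4 _ h
            have : 0 ≤ s * j := by positivity
            exact ⟨_, Finset.mem_insert_self _ _, by linarith [hc x x1 x2.symm h], by linarith⟩
          · obtain ⟨t, ht, h3, h4⟩ := t2 x x1 h
            exact ⟨t, Finset.mem_insert_of_mem ht, by linarith, h3⟩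
        have b2 := b1.trans (Finset.sum_le_card_nsmul _ _ k fun t _ =>
          (countP_le_of_le _ (filter_le _ _)).trans (h1.1 t))
        have b3 := h1.2 (2 * s)
        have b4 := Nat.mul_le_mul_right k ((Finset.card_insert_le (a + 2 * s) T).trans
          (Nat.succ_le_succ t1))
        rw [count_add, count_replicate_self, count_map] at b3
        rw [smul_eq_mul] at b2
        nlinarith [Nat.zero_le (count (2 * s) Y)]
      obtain ⟨j, hj, j1, j2⟩ := a4 _ x2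
      obtain ⟨j, rfl⟩ : ∃ i, j = i + 1 := Nat.exists_eq_succ_of_ne_zero (by
        rintro rfl; simp only [Nat.cast_zero] at j2; linarith)
      obtain ⟨τ, t1, ⟨t2, t3⟩, t4⟩ := a8 R (h1.mono (le_add_right _ _)) h2 j (by omega)
      push_cast at j1 j2
      have b1 : x ::ₘ R.filter (fun e => e.2 < s) ≤ R.filter fun e => e.2 < σ :=
        (cons_le_of_notMem fun h => by linarith [(mem_filter.1 h).2]).2
          ⟨mem_filter.2 ⟨hx, by linarith⟩, monotone_filter_right R fun e (he : e.2 < s) =>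
            show e.2 < σ by linarith⟩
      refine ⟨τ, t1, le_trans ?_ (countP_le_of_le _ b1)⟩
      rw [countP_cons_of_pos _ ⟨by linarith, by linarith⟩]
      exact Nat.succ_le_succ t4

end Vale.Agent.P302
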