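import Vale.Agent.P302.Pack
import Vale.Agent.P302.Gad

/-! The instances with a large additive gap. -/

namespace Vale.Agent.P302

open Multiset

theorem ld_add (R : Multiset (ℚ × ℚ)) (h : ∀ e ∈ R, 0 ≤ e.2) (τ : ℚ) :
    ld R τ + R.countP (fun e => τ ≤ e.1 - e.2) = (R.map Prod.fst).countP (τ ≤ ·) := by
  induction R using Multiset.induction with
  | empty => simp [ld]
  | cons e R ih =>
    have h1 := ih fun e he => h e (mem_cons_of_mem he)
    have h2 := h e (mem_cons_self _ _)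
    simp only [ld, map_cons, countP_cons] at *
    by_cases h3 : τ ≤ e.1 - e.2
    · rw [if_pos h3, if_neg fun h => by linarith [h.1], if_pos (by linarith)]
      omega
    · simp only [h3, lt_of_not_ge h3, true_and, if_false]
      omega

theorem fill {M : ℕ} (hM : 0 < M) {S : Finset ℚ} {Y : Multiset ℚ} {E : Multiset (ℚ × ℚ)}
    (h0 : ∀ p ∈ S, 0 ≤ p) (h1 : E.map Prod.snd = M • Y)
    (h2 : ∀ e ∈ E, e.1 ∈ S ∧ 0 < e.2 ∧ 0 ≤ e.1 - e.2) (h3 : ∀ τ, ld E τ ≤ M) :
    ∃ (Y' : Multiset ℚ) (E' : Multiset (ℚ × ℚ)), Y ≤ Y' ∧ card Y' = S.card ∧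
      E'.map Prod.fst = M • S.val ∧ E'.map Prod.snd = M • Y' ∧
      (∀ e ∈ E', e.1 ∈ S ∧ 0 ≤ e.2 ∧ 0 ≤ e.1 - e.2) ∧ ∀ τ, ld E' τ ≤ M := by
  obtain ⟨U, hU⟩ : ∃ U, M • S.val = E.map Prod.fst + U := exists_add_of_le (le_iff_count.2 fun p => by
    by_cases hp : p ∈ S
    · rw [count_nsmul, count_eq_one_of_mem S.nodup hp, mul_one, count_map]
      refine le_trans ?_ (h3 p)
      rw [ld, countP_eq_card_filter]
      refine card_le_card (le_filter.2 ⟨filter_le _ _, fun e he => ?_⟩)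
      obtain ⟨a1, a2⟩ := mem_filter.1 he
      exact ⟨by linarith [(h2 e a1).2.1], a2.le⟩
    · rw [count_eq_zero.2 fun h => ?_]
      · exact Nat.zero_le _
      · obtain ⟨e, he, rfl⟩ := mem_map.1 h
        exact hp (h2 e he).1)
  have a1 := congrArg card hU
  have a2 := congrArg card h1
  simp only [card_nsmul, card_add, card_map, Finset.card_val] at a1 a2
  obtain ⟨m, hm⟩ : ∃ m, S.card = card Y + m := exists_add_of_le (Nat.le_of_mul_le_mul_left (by omega) hM)
  have a3 : card U = M * m := by rw [hm, mul_add] at a1; omega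
  refine ⟨Y + replicate m 0, E + U.map fun p => (p, 0), le_add_right _ _, by simp [hm],
    by simp [hU], by simp [h1, a3, nsmul_replicate], fun e he => ?_, fun τ => ?_⟩
  · rcases mem_add.1 he with he | he
    · exact ⟨(h2 e he).1, (h2 e he).2.1.le, (h2 e he).2.2⟩
    · obtain ⟨p, hp, rfl⟩ := mem_map.1 he
      have : p ∈ S := mem_of_mem_nsmul (n := M) (s := S.val) (hU ▸ mem_add.2 (Or.inr hp))
      exact ⟨this, le_rfl, by simpa using h0 p this⟩
  · rw [ld, countP_add, (countP_eq_zero (s := U.map _)).2 fun e he h => ?_]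
    · exact h3 τ
    · obtain ⟨p, hp, rfl⟩ := mem_map.1 he
      linarith [h.1, h.2]

theorem shift {S : Multiset ℚ} (hS : S ≠ 0) : ∃ X : Multiset ℚ, card X = card S ∧
    (∀ x ∈ X, x = 0 ∨ x ∈ S) ∧ (∀ τ, S.countP (τ ≤ ·) ≤ X.countP (τ ≤ ·) + 1) ∧
    ∀ τ, 0 < τ → X.countP (τ ≤ ·) = 0 ∨ X.countP (τ ≤ ·) + 1 = S.countP (τ ≤ ·) := by
  obtain ⟨t, ht, h⟩ := exists_max_image id hS
  obtain ⟨U, rfl⟩ := exists_cons_of_mem ht
  refine ⟨0 ::ₘ U, by simp, fun x hx => (mem_cons.1 hx).imp id mem_cons_of_mem, fun τ => ?_,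
    fun τ hτ => ?_⟩
  · simp only [countP_cons]
    split_ifs <;> omega
  · by_cases h1 : τ ≤ t
    · simp [h1, hτ]
    · refine Or.inl (countP_eq_zero.2 fun x hx h2 => ?_)
      rcases mem_cons.1 hx with rfl | hx
      exacts [hτ.not_ge h2, h1 (h2.trans (h x (mem_cons_of_mem hx)))]

theorem opt_mem {I : List ℚ} (h : ∀ a ∈ I, a ≤ 1) :
    ∃ B : Fin (OPT I) → Multiset ℚ, ∑ b, B b = (I : Multiset ℚ) ∧ ∀ b, (B b).sum ≤ 1 :=
  Nat.sInf_mem (s := {k | ∃ B : Fin k → Multiset ℚ, ∑ b, B b = (I : Multiset ℚ) ∧ ∀ b, (B b).sum ≤ 1})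
    ⟨I.length, fun b => {I[b.1]}, by
      rw [Fin.sum_univ_fun_getElem I fun a => ({a} : Multiset ℚ), ← sum_coe, ← map_coe,
        sum_map_singleton], fun b => by simpa using h _ (List.getElem_mem _)⟩

theorem gap (c : ℕ) : ∃ (I : List ℚ) (P : ℕ),
    (∀ a ∈ I, 1 / 5 < a ∧ a ≤ 1) ∧ LP I ≤ P ∧ P + c < OPT I := by
  obtain ⟨M, hM⟩ : ∃ M, M = 3 * (8 * c + 2) := ⟨_, rfl⟩
  have M0 : 0 < M := by omega
  obtain ⟨S, Y₀, E₀, δ, -, -, hS, s1, ⟨f1, f2, f3⟩, hR⟩ :=
    gad (8 * c + 1) M0 (8 * c + 2) 0 0 (1 / 1000) (by norm_num)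
  obtain ⟨Y, E, y1, y2, e1, e2, e3, e4⟩ := fill M0 (fun p hp => (s1 p hp).1) f1 f2 (hM ▸ f3)
  obtain ⟨X, x1, x2, x3, x4⟩ := shift (S := S.val) (by simpa using hS.ne_empty)
  have y3 : ∀ y ∈ Y, 0 ≤ y ∧ y < 1 / 1000 := fun y hy => by
    obtain ⟨e, he, rfl⟩ := mem_map.1 (e2 ▸ (mem_nsmul_of_ne_zero M0.ne').2 hy)
    obtain ⟨a1, a2, a3⟩ := e3 e he
    exact ⟨a2, by linarith [(s1 _ a1).2]⟩
  have x5 : ∀ x ∈ X, 0 ≤ x ∧ x < 1 / 1000 := fun x hx => by
    rcases x2 x hx with rfl | h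
    exacts [by norm_num, by simpa using s1 x h]
  obtain ⟨J, hJ⟩ : ∃ J, J = S.val.map (52 / 100 - ·) + X.map (27 / 100 + ·) + Y.map (21 / 100 + ·) :=
    ⟨_, rfl⟩
  have a1 : ∀ a ∈ S.val.map (52 / 100 - ·), 519 / 1000 ≤ a ∧ a ≤ 52 / 100 := fun a ha => by
    obtain ⟨p, hp, rfl⟩ := mem_map.1 ha
    constructor <;> linarith [s1 p hp]
  have a2 : ∀ a ∈ X.map (27 / 100 + ·), 27 / 100 ≤ a ∧ a ≤ 1 / 2 := fun a ha => by
    obtain ⟨p, hp, rfl⟩ := mem_map.1 ha
    constructor <;> linarith [x5 p hp]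
  have a3 : ∀ a ∈ Y.map (21 / 100 + ·), 21 / 100 ≤ a ∧ a ≤ 1 / 4 := fun a ha => by
    obtain ⟨p, hp, rfl⟩ := mem_map.1 ha
    constructor <;> linarith [y3 p hp]
  have a4 : ∀ a ∈ J, (519 / 1000 ≤ a ∧ a ≤ 52 / 100) ∨ (27 / 100 ≤ a ∧ a ≤ 1 / 2) ∨
      (21 / 100 ≤ a ∧ a ≤ 1 / 4) := fun a ha => by
    simp only [hJ, mem_add, or_assoc] at ha
    exact ha.imp (a1 a) (Or.imp (a2 a) (a3 a))
  have a5 : ∀ a ∈ J.toList, 1 / 5 < a ∧ a ≤ 1 := fun a ha => by
    rcases a4 a (mem_toList.1 ha) with h | h | h <;> constructor <;> linarith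
  refine ⟨J.toList, S.card, a5, ?_, lt_of_not_ge fun hc => ?_⟩
  · obtain ⟨T, t1, t2, t3⟩ := nest (M * S.card) (M • X) E (by simp [x1])
      (by simpa using congrArg card e1) fun τ => by
        have b1 := ld_add E (fun e he => (e3 e he).2.1) τ
        have b2 := e4 τ
        rw [e1, countP_nsmul] at b1
        by_cases hτ : 0 < τ
        · rw [countP_nsmul]
          rcases x4 τ hτ with h | h
          · simp [h]
          · rw [← h, mul_add] at b1
            omega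
        · rw [countP_eq_card.2 fun e (he : e ∈ E) => (not_lt.1 hτ).trans (e3 e he).2.2]
          exact (countP_le_card _ _).trans_eq (by simpa [x1] using (congrArg card e1).symm)
    have b1 (f : ℚ × ℚ × ℚ → ℚ) : (T.map fun t => ({f t} : Multiset ℚ)).sum = T.map f :=
      bind_singleton T f
    refine (lp_le _ M0 (T.map fun t => {52 / 100 - t.2.1} + {27 / 100 + t.1} + {21 / 100 + t.2.2})
      (fun β hβ => ?_) ?_).trans_eq ?_
    · obtain ⟨t, ht, rfl⟩ := mem_map.1 hβ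
      simp only [sum_add, sum_singleton]
      linarith [t3 t ht]
    · simp only [sum_map_add, b1, coe_toList, hJ, ← Multiset.map_nsmul, nsmul_add, ← e1, ← e2, ← t1,
        ← t2, map_map, Function.comp_def]
    · have := congrArg card (t2 ▸ e1)
      simp only [card_map, card_nsmul, Finset.card_val] at this ⊢
      rw [this]
      push_cast
      field_simp
  · obtain ⟨B, b1, b2⟩ := opt_mem fun a ha => (a5 a ha).2
    rw [coe_toList] at b1
    obtain ⟨r, r1, r2, r3, r4, r5⟩ := bins Finset.univ B fun b _ => bin (b2 b) fun a ha =>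
      (a4 a (b1 ▸ mem_sum.2 ⟨b, Finset.mem_univ _, ha⟩)).imp_left And.left
    have n1 : J.filter (¬ 1 / 2 < ·) = X.map (27 / 100 + ·) + Y.map (21 / 100 + ·) := by
      rw [hJ, filter_add, filter_add, filter_eq_nil.2 fun a ha h => h (by linarith [a1 a ha]),
        filter_eq_self.2 fun a ha h => by linarith [a2 a ha],
        filter_eq_self.2 fun a ha h => by linarith [a3 a ha], zero_add]
    have c1 : fA J = S.val.map (52 / 100 - ·) := by
      rw [fA, hJ, filter_add, filter_add, filter_eq_self.2 fun a ha => by linarith [a1 a ha],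
        filter_eq_nil.2 fun a ha h => by linarith [a2 a ha],
        filter_eq_nil.2 fun a ha h => by linarith [a3 a ha], add_zero, add_zero]
    have c2 : fX J = X.map (27 / 100 + ·) := by
      rw [fX, n1, filter_add, filter_eq_self.2 fun a ha => by linarith [a2 a ha],
        filter_eq_nil.2 fun a ha h => by linarith [a3 a ha], add_zero]
    have c3 : fY J = Y.map (21 / 100 + ·) := by
      rw [fY, n1, filter_add, filter_eq_nil.2 fun a ha h => h (by linarith [a2 a ha]),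
        filter_eq_self.2 fun a ha h => by linarith [a3 a ha], zero_add]
    rw [b1, c1] at r1
    rw [b1, c2] at r2
    rw [b1, c3] at r3
    simp only [b1, c1, c2, c3, card_map, x1, y2, Finset.card_val, Finset.card_univ,
      Fintype.card_fin] at r5
    replace r1 := map_le_map (f := (52 / 100 - ·)) r1
    replace r2 := map_le_map (f := (· - 27 / 100)) r2
    replace r3 := map_le_map (f := (· - 21 / 100)) r3
    simp only [map_map, Function.comp_def, sub_sub_cancel, add_sub_cancel_left, map_id'] at r1 r2 r3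
    obtain ⟨R, e⟩ : ∃ R, R = r.map fun t => (52 / 100 - t.1, t.2.2 - 21 / 100) := ⟨_, rfl⟩
    have d1 : R.map Prod.fst ≤ S.val := by simpa [e] using r1
    have d2 : R.map Prod.snd ≤ Y := by simpa [e] using r3
    have d3 (τ : ℚ) : ld R τ ≤ 8 * c + 1 := by
      have g1 := ld_add R (fun e he => (y3 _ (mem_of_le d2 (mem_map_of_mem _ he))).1) τ
      have g2 := countP_le_of_le (τ ≤ ·) d1
      have g3 := countP_le_add (K := 8 * c) r2 (by rw [x1, card_map, Finset.card_val]; omega) (τ ≤ ·)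
      have g4 : (r.map fun t => t.2.1 - 27 / 100).countP (τ ≤ ·) ≤
          R.countP fun e => τ ≤ e.1 - e.2 := by
        rw [e, countP_map, countP_map]
        refine card_le_card (le_filter.2 ⟨filter_le _ _, fun t ht => ?_⟩)
        obtain ⟨h1, h2⟩ := mem_filter.1 ht
        linarith [r4 t h1]
      have g5 := x3 τ
      omega
    obtain ⟨τ, -, h⟩ := hR R ⟨d3, fun w => (count_le_of_le w y1).trans ((countP_le_add (K := 8 * c) d2
      (by rw [y2, e, card_map, card_map]; omega) _).trans (Nat.le_succ _))⟩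
      ⟨∅, le_rfl, fun e he h => (h (mem_of_le d1 (mem_map_of_mem _ he))).elim⟩
    have := h.trans ((countP_le_of_le _ (filter_le _ _)).trans (d3 τ))
    omega

end Vale.Agent.P302
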