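import Vale.Agent.P302.Defs

/-! Fractional packings, nested matchings and regular bins. -/

namespace Vale.Agent.P302

open Multiset

theorem lp_le (I : List ℚ) {M : ℕ} (hM : 0 < M) (B : Multiset (Multiset ℚ))
    (h1 : ∀ β ∈ B, β.sum ≤ 1) (h2 : B.sum = M • (I : Multiset ℚ)) : LP I ≤ card B / M := by
  have hM' : (0 : ℝ) < M := by exact_mod_cast hM
  let cf : Multiset ℚ → I.toFinset → ℕ := fun β σ => β.count σ.1
  refine csInf_le ⟨0, ?_⟩ ⟨(B.map cf).toFinset, fun c => (B.map cf).count c / M,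
    fun c hc => ⟨?_, by positivity⟩, fun σ => ?_, ?_⟩
  · rintro t ⟨C, z, h, -, rfl⟩
    exact Finset.sum_nonneg fun c hc => (h c hc).2
  · obtain ⟨β, hβ, rfl⟩ := mem_map.1 (mem_toFinset.1 hc)
    have h3 : β.toFinset ⊆ I.toFinset := fun x hx => by
      have := mem_of_le (single_le_sum (fun _ _ => Multiset.zero_le _) β hβ) (mem_toFinset.1 hx)
      rw [h2] at this
      simpa using mem_of_mem_nsmul this
    have h4 := h1 β hβ
    rw [Finset.sum_multiset_count_of_subset β _ h3, ← Finset.sum_coe_sort] at h4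
    simpa [IsConfig, cf, mul_comm] using h4
  · have h3 := Finset.sum_multiset_map_count (B.map cf) fun c => c σ
    have h4 := count_sum (m := B) (f := id) (a := (σ : ℚ))
    rw [map_id, h2, count_nsmul, coe_count] at h4
    rw [map_map] at h3
    have h5 := congrArg (Nat.cast : ℕ → ℝ) (h4.trans h3)
    simp only [← mul_div_assoc, ← Finset.sum_div]
    rw [le_div_iff₀ hM']
    simpa [mul_comm] using h5.le
  · rw [← Finset.sum_div, ← Nat.cast_sum, toFinset_sum_count_eq, card_map]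

theorem nest (n : ℕ) : ∀ (X : Multiset ℚ) (E : Multiset (ℚ × ℚ)), card X = n → card E = n →
    (∀ τ, X.countP (τ ≤ ·) ≤ E.countP fun e => τ ≤ e.1 - e.2) →
    ∃ T : Multiset (ℚ × ℚ × ℚ), T.map Prod.fst = X ∧ T.map Prod.snd = E ∧
      ∀ t ∈ T, t.1 ≤ t.2.1 - t.2.2 := by
  induction n with
  | zero => exact fun X E h1 h2 _ => ⟨0, (card_eq_zero.1 h1).symm, (card_eq_zero.1 h2).symm, by simp⟩
  | succ n ih =>
    intro X E h1 h2 h
    obtain ⟨x, hx, h3⟩ := exists_max_image id (s := X) (by rintro rfl; simp at h1)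
    obtain ⟨e, he, h4⟩ := countP_pos.1 ((countP_pos.2 ⟨x, hx, le_rfl⟩).trans_le (h x))
    obtain ⟨X, rfl⟩ := exists_cons_of_mem hx
    obtain ⟨E, rfl⟩ := exists_cons_of_mem he
    obtain ⟨T, t1, t2, t3⟩ := ih X E (by simpa using h1) (by simpa using h2) fun τ => by
      by_cases h5 : τ ≤ x
      · simpa [countP_cons, h5, h5.trans h4] using h τ
      · rw [countP_eq_zero.2 fun y hy h6 => h5 (h6.trans (h3 y (mem_cons_of_mem hy)))]
        exact Nat.zero_le _
    refine ⟨(x, e) ::ₘ T, by simp [t1], by simp [t2], fun t ht => ?_⟩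
    rcases mem_cons.1 ht with rfl | ht
    exacts [h4, t3 t ht]

/-- large items -/
def fA (β : Multiset ℚ) : Multiset ℚ := β.filter (1 / 2 < ·)

/-- medium items -/
def fX (β : Multiset ℚ) : Multiset ℚ := (β.filter (¬ 1 / 2 < ·)).filter (1 / 4 < ·)

/-- small items -/
def fY (β : Multiset ℚ) : Multiset ℚ := (β.filter (¬ 1 / 2 < ·)).filter (¬ 1 / 4 < ·)

/-- `r` lists bins holding one item of each kind -/
def Reg (β : Multiset ℚ) (r : Multiset (ℚ × ℚ × ℚ)) (n : ℕ) : Prop :=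
  r.map Prod.fst ≤ fA β ∧ r.map (·.2.1) ≤ fX β ∧ r.map (·.2.2) ≤ fY β ∧
    (∀ t ∈ r, t.1 + t.2.1 + t.2.2 ≤ 1) ∧ 6 * card (fA β) + 2 * card (fX β) + card (fY β) ≤ card r + 8 * n

theorem bin {β : Multiset ℚ} (h1 : β.sum ≤ 1) (h : ∀ a ∈ β, 519 / 1000 ≤ a ∨
    (27 / 100 ≤ a ∧ a ≤ 1 / 2) ∨ (21 / 100 ≤ a ∧ a ≤ 1 / 4)) : ∃ r, Reg β r 1 := by
  have e : fA β + (fX β + fY β) = β := by rw [fA, fX, fY, filter_add_not, filter_add_not]
  rw [← e, sum_add, sum_add] at h1
  have a1 := card_nsmul_le_sum (s := fA β) (a := 519 / 1000) fun a ha => by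
    obtain ⟨h2, h3⟩ := mem_filter.1 ha
    rcases h a h2 with h | h | h <;> linarith
  have a2 := card_nsmul_le_sum (s := fX β) (a := 27 / 100) fun a ha => by
    obtain ⟨h2, h3⟩ := mem_filter.1 ha
    rcases h a (mem_of_mem_filter h2) with h | h | h <;> linarith
  have a3 := card_nsmul_le_sum (s := fY β) (a := 21 / 100) fun a ha => by
    rcases h a (mem_of_mem_filter (mem_of_mem_filter ha)) with h | h | h <;> linarith
  rw [nsmul_eq_mul] at a1 a2 a3
  have a4 : 519 * card (fA β) + 270 * card (fX β) + 210 * card (fY β) ≤ 1000 := by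
    have : (519 * card (fA β) + 270 * card (fX β) + 210 * card (fY β) : ℚ) ≤ 1000 := by linarith
    exact_mod_cast this
  by_cases h2 : card (fA β) = 1 ∧ card (fX β) = 1 ∧ card (fY β) = 1
  · obtain ⟨⟨a, ha⟩, ⟨x, hx⟩, ⟨y, hy⟩⟩ : (∃ a, fA β = {a}) ∧ (∃ a, fX β = {a}) ∧ ∃ a, fY β = {a} := by
      simpa only [card_eq_one] using h2
    refine ⟨{(a, x, y)}, ?_⟩
    simpa [Reg, ha, hx, hy, add_assoc] using h1
  · refine ⟨0, by simp, by simp, by simp, by simp, ?_⟩
    generalize card (fA β) = a, card (fX β) = x, card (fY β) = y at *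
    have : a ≤ 1 := by omega
    have : x ≤ 3 := by omega
    interval_cases a <;> interval_cases x <;> simp <;> omega

theorem bins {ι : Type*} (s : Finset ι) (B : ι → Multiset ℚ) (h : ∀ b ∈ s, ∃ r, Reg (B b) r 1) :
    ∃ r, Reg (∑ b ∈ s, B b) r s.card := by
  induction s using Finset.cons_induction with
  | empty => exact ⟨0, by simp [Reg, fA, fX, fY]⟩
  | cons b s hb ih =>
    obtain ⟨r, a1, a2, a3, a4, a5⟩ := h b (Finset.mem_cons_self _ _)
    obtain ⟨r', b1, b2, b3, b4, b5⟩ := ih fun b hb => h b (Finset.mem_cons_of_mem hb)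
    simp only [Reg, fA, fX, fY, Finset.sum_cons, Finset.card_cons] at *
    refine ⟨r + r', ?_⟩
    simp only [filter_add, Multiset.map_add, card_add, mem_add]
    exact ⟨add_le_add a1 b1, add_le_add a2 b2, add_le_add a3 b3,
      fun t ht => ht.elim (a4 t) (b4 t), by omega⟩

theorem countP_le_add {s t : Multiset ℚ} {K : ℕ} (h : s ≤ t) (h2 : card t ≤ card s + K)
    (p : ℚ → Prop) [DecidablePred p] : t.countP p ≤ s.countP p + K := by
  obtain ⟨u, rfl⟩ := exists_add_of_le h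
  have := countP_le_card p u
  simp only [card_add, countP_add] at *
  omega

end Vale.Agent.P302
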